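import Vale.Agent.P343.H741.Iface

/-!
Row P: recurrent states of idempotent boxes.  Everything is proved for an abstract monoid with
crossings and applied to the boxes (heads moving to the right) and to the opposite monoid (heads
moving to the left).
-/

namespace Vale.Agent.P343.H573

open Vale.Agent.P343.H741

/-- Crossings in one direction. -/
structure DF (M : Type) [Monoid M] (Q : Type) where
  C : M → M → M → Q → Q → Prop
  D : M → Q → Q → Prop
  EL : M → M → Prop
  ER : M → M → Prop
  eL : ∀ m, EL m m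
  eR : ∀ m, ER m m
  single : ∀ {l m r : M} {x y : Q}, D m x y → C l m r x y
  mono : ∀ {l l' m r r' : M} {x y : Q}, EL l l' → ER r r' → C l m r x y → C l' m r' x y
  comp : ∀ {l m m' r : M} {x y z : Q}, C l m (m' * r) x y → C (l * m) m' r y z →
    C l (m * m') r x z
  split : ∀ {l m m' r : M} {x z : Q}, C l (m * m') r x z →
    ∃ y, C l m (m' * r) x y ∧ C (l * m) m' r y z
  out : ∀ {l m r : M} {a x y b : Q}, D l a x → C l m r x y → D r y b → D (l * m * r) a b
  inn : ∀ {l m r : M} {a b : Q}, D (l * m * r) a b → ∃ x y, D l a x ∧ C l m r x y ∧ D r y b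
  dir : ∀ {l m1 m2 m3 r : M} {x z : Q}, C l (m1 * m2 * m3) r x z →
    ∃ w w', C l m1 (m2 * m3 * r) x w ∧ D m2 w w' ∧ C (l * m1 * m2) m3 r w' z
  bR : ∀ f g : M, ER f (f * g)
  bL : ∀ f g : M, EL g (f * g)

namespace DF

variable {M : Type} [Monoid M] {Q : Type} (A : DF M Q)

/-- crossing `e` among boxes `e` -/
def T (e : M) (x y : Q) : Prop := A.C e e e x y

/-- crossing `s` among boxes `e` -/
def X (e s : M) (x y : Q) : Prop := A.C e s e x y

/-- the passage through `z` -/
def Via (e : M) (a b z : Q) : Prop := ∃ x y, A.D e a x ∧ A.T e x z ∧ A.T e z y ∧ A.D e y b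

variable {A}

theorem erl {e f : M} (h : e * f = f) : A.ER e f := by
  have := A.bR e f
  rwa [h] at this

theorem ell {e f : M} (h : f * e = f) : A.EL e f := by
  have := A.bL f e
  rwa [h] at this

theorem trans {e : M} {x y z : Q} (he : e * e = e) (h1 : A.T e x y) (h2 : A.T e y z) :
    A.T e x z := by
  have h3 : A.C e (e * e) e x z := A.comp (y := y) (by rw [he]; exact h1) (by rw [he]; exact h2)
  rw [he] at h3
  exact h3

theorem dense {e : M} {x z : Q} (he : e * e = e) (h : A.T e x z) :
    ∃ y, A.T e x y ∧ A.T e y z := by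
  have h3 : A.C e (e * e) e x z := by rw [he]; exact h
  obtain ⟨y, h4, h5⟩ := A.split h3
  rw [he] at h4 h5
  exact ⟨y, h4, h5⟩

theorem cmp {e s t : M} {x : Q} (hs1 : e * s = s) (hs2 : s * e = s) (ht1 : e * t = t)
    (ht2 : t * e = t) (h1 : A.X e s x x) (h2 : A.X e t x x) : A.X e (s * t) x x := by
  refine A.comp (y := x) ?_ ?_
  · rw [ht2]
    exact A.mono (A.eL e) (erl ht1) h1
  · rw [hs1]
    exact A.mono (ell hs2) (A.eR e) h2

theorem invL {e f : M} {x y z : Q} (he : e * e = e) (h1 : e * f = f) (h2 : f * e = f)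
    (h3 : A.T e x y) (h4 : A.X e f y z) : A.X e f x z := by
  have h5 : A.C e (e * f) e x z := A.comp (y := y) (by
    rw [h2]
    exact A.mono (A.eL e) (erl h1) h3) (by rw [he]; exact h4)
  rw [h1] at h5
  exact h5

theorem invR {e f : M} {x y z : Q} (he : e * e = e) (h1 : e * f = f) (h2 : f * e = f)
    (h3 : A.X e f x y) (h4 : A.T e y z) : A.X e f x z := by
  have h5 : A.C e (f * e) e x z := A.comp (y := y) (by rw [he]; exact h3) (by
    rw [h1]
    exact A.mono (ell h2) (A.eR e) h4)
  rw [h2] at h5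
  exact h5

theorem fin [Finite Q] {e : M} {x y : Q} (he : e * e = e) (h : A.T e x y) :
    ∃ z, A.T e x z ∧ A.T e z z ∧ A.T e z y := by
  by_contra hcon
  push Not at hcon
  let S : Set Q := {z | A.T e x z ∧ A.T e z y}
  let R : S → S → Prop := fun u v => A.T e v.1 u.1
  have : IsTrans S R := ⟨fun a b c h1 h2 => trans he h2 h1⟩
  have : Std.Irrefl R := ⟨fun a h1 => hcon a.1 a.2.1 h1 a.2.2⟩
  have hwf : WellFounded R := Finite.wellFounded_of_trans_of_irrefl R
  obtain ⟨z0, h1, h2⟩ := dense he h
  obtain ⟨m, _, hm⟩ := hwf.has_min Set.univ ⟨⟨z0, h1, h2⟩, trivial⟩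
  obtain ⟨w, h3, h4⟩ := dense he m.2.2
  exact hm ⟨w, trans he m.2.1 h3, h4⟩ trivial h3

theorem via1 [Finite Q] {e : M} {a b : Q} (he : e * e = e) (h : A.D e a b) :
    ∃ z, A.T e z z ∧ A.Via e a b z := by
  have h1 : A.D (e * e * e) a b := by rw [he, he]; exact h
  obtain ⟨x, y, h2, h3, h4⟩ := A.inn h1
  obtain ⟨z, h5, h6, h7⟩ := fin he h3
  exact ⟨z, h6, x, y, h2, h5, h7, h4⟩

theorem via2 {e f : M} {a b z : Q} (he : e * e = e) (h1 : e * f = f) (h2 : f * e = f)
    (h3 : A.Via e a b z) (h4 : A.X e f z z) : A.D f a b := by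
  obtain ⟨x, y, h5, h6, h7, h8⟩ := h3
  have h9 := invR he h1 h2 (invL he h1 h2 h6 h4) h7
  have h10 := A.out h5 h9 h8
  rwa [h1, h2] at h10

theorem via3 {e : M} {a b a' b' z z' : Q} (he : e * e = e) (h1 : A.Via e a b z)
    (h2 : A.Via e a' b' z') (h3 : A.T e z z') : A.D e a b' := by
  obtain ⟨x, y, h5, h6, h7, h8⟩ := h1
  obtain ⟨x', y', h5', h6', h7', h8'⟩ := h2
  have h10 := A.out h5 (trans he (trans he h6 h3) h7') h8'
  rwa [he, he] at h10

theorem port [Finite Q] {e f : M} {y : Q} (he : e * e = e) (hf : f * f = f) (h1 : e * f = f)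
    (h2 : f * e = f) (hy : A.T f y y) : ∃ u v, A.T e u u ∧ A.T e v v ∧ A.T f y u ∧ A.T f u y ∧
      A.T f y v ∧ A.T f v y ∧ A.X e f u v := by
  have h3 : A.C f (f * f * f) f y y := by rw [hf, hf]; exact hy
  obtain ⟨w, w', h4, h5, h6⟩ := A.dir h3
  rw [hf, hf] at h4 h6
  have h7 : A.D (e * f * e) w w' := by rw [h1, h2]; exact h5
  obtain ⟨x, x', h8, h9, h10⟩ := A.inn h7
  obtain ⟨u, hu, p, p', a1, a2, a3, a4⟩ := via1 he h8
  obtain ⟨v, hv, s, s', b1, b2, b3, b4⟩ := via1 he h10
  -- crossings in the environment `f`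
  have m1 : ∀ {x y : Q}, A.T e x y → A.C f e f x y := fun h => A.mono (ell h2) (erl h1) h
  have m2 : ∀ {x y : Q}, A.X e f x y → A.C f f f x y := fun h => A.mono (ell h2) (erl h1) h
  refine ⟨u, v, hu, hv, ?_, ?_, ?_, ?_, ?_⟩
  · -- `y → w → p → u`
    have k1 : A.C f (e * e) f w u := A.comp (y := p) (A.single a1) (by rw [h2]; exact m1 a2)
    have k2 : A.C f (f * (e * e)) f y u := A.comp (y := w) (by rw [he, h1]; exact h4)
      (by rw [hf]; exact k1)
    rw [he, h2] at k2
    exact k2
  · -- `u → p' → x → x' → w' → y`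
    have k1 : A.C f (e * f) f x' y := A.comp (y := w') (A.single h10) (by rw [h2]; exact h6)
    have k2 : A.C f (f * (e * f)) f x y := A.comp (y := x') (by rw [h1, hf]; exact m2 h9)
      (by rw [hf]; exact k1)
    have k3 : A.C f (e * (f * (e * f))) f p' y := A.comp (y := x) (A.single a4)
      (by rw [h2]; exact k2)
    have k4 : A.C f (e * (e * (f * (e * f)))) f u y := A.comp (y := p')
      (by rw [h1, hf, h1, hf]; exact m1 a3) (by rw [h2]; exact k3)
    rw [h1, hf, h1, h1] at k4
    exact k4
  · -- `y → w → x → x' → s → v`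
    have k1 : A.C f (e * e) f x' v := A.comp (y := s) (A.single b1) (by rw [h2]; exact m1 b2)
    have k2 : A.C f (f * (e * e)) f x v := A.comp (y := x') (by rw [he, h1]; exact m2 h9)
      (by rw [hf]; exact k1)
    have k3 : A.C f (e * (f * (e * e))) f w v := A.comp (y := x) (A.single h8)
      (by rw [h2]; exact k2)
    have k4 : A.C f (f * (e * (f * (e * e)))) f y v := A.comp (y := w)
      (by rw [he, h2, h1, hf]; exact h4) (by rw [hf]; exact k3)
    rw [he, h2, h1, hf] at k4
    exact k4
  · -- `v → s' → w' → y`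
    have k1 : A.C f (e * f) f s' y := A.comp (y := w') (A.single b4) (by rw [h2]; exact h6)
    have k2 : A.C f (e * (e * f)) f v y := A.comp (y := s') (by rw [h1, hf]; exact m1 b3)
      (by rw [h2]; exact k1)
    rw [h1, h1] at k2
    exact k2
  · -- `u → p' → x → x' → s → v` in the environment `e`
    have k1 : A.C f (e * e) e x' v := A.comp (y := s) (A.single b1)
      (by rw [h2]; exact A.mono (ell h2) (A.eR e) b2)
    have k2 : A.C e (f * (e * e)) e x v := A.comp (y := x') (by rw [he, he]; exact h9)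
      (by rw [h1]; exact k1)
    have k3 : A.C e (e * (f * (e * e))) e p' v := A.comp (y := x) (A.single a4)
      (by rw [he] at k2 ⊢; exact k2)
    have k4 : A.C e (e * (e * (f * (e * e)))) e u v := A.comp (y := p')
      (by rw [he, h2, h1, h2]; exact A.mono (A.eL e) (erl h1) a3) (by rw [he] at k3 ⊢; exact k3)
    rw [he, h2, h1, h1] at k4
    exact k4

theorem subL {e f : M} {x y z : Q} (hf : f * f = f) (h1 : e * f = f)
    (h2 : f * e = f) (h3 : A.T e x y) (h4 : A.T f y z) : A.T f x z := by
  have k1 : A.C f (e * f) f x z := A.comp (y := y)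
    (by rw [hf]; exact A.mono (ell h2) (erl h1) h3) (by rw [h2]; exact h4)
  rw [h1] at k1
  exact k1

theorem subR {e f : M} {x y z : Q} (hf : f * f = f) (h1 : e * f = f)
    (h2 : f * e = f) (h3 : A.T f x y) (h4 : A.T e y z) : A.T f x z := by
  have k1 : A.C f (f * e) f x z := A.comp (y := y)
    (by rw [h1]; exact h3) (by rw [hf]; exact A.mono (ell h2) (erl h1) h4)
  rw [h2] at k1
  exact k1

theorem env {e0 e s : M} {x y : Q} (h1 : e0 * e = e) (h2 : e * e0 = e) (h : A.X e0 s x y) :
    A.X e s x y := A.mono (ell h2) (erl h1) h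

end DF

variable {Q : Type}

/-- heads moving to the right -/
def right (H : AlgFacts Q) : DF (NB Q) Q where
  C l m r x y := Cr l m r false x y
  D m x y := m (false, x) (false, y)
  EL l l' := ∀ q q', l (true, q) (false, q') → l' (true, q) (false, q')
  ER r r' := ∀ q q', r (false, q) (true, q') → r' (false, q) (true, q')
  eL _ _ _ h := h
  eR _ _ _ h := h
  single h := H.single h
  mono h1 h2 h := H.mono h1 h2 (fun _ _ h => h) h
  comp h1 h2 := H.compR h1 h2
  split h := H.splitR h
  out h1 h2 h3 := H.outR h1 h2 h3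
  inn h := H.inR h
  dir h := H.dirR h
  bR _ _ _ _ h := H.bncR h
  bL _ _ _ _ h := H.bncL h

open MulOpposite

/-- heads moving to the left -/
def left (H : AlgFacts Q) : DF (NB Q)ᵐᵒᵖ Q where
  C l m r x y := Cr (unop r) (unop m) (unop l) true x y
  D m x y := (unop m) (true, x) (true, y)
  EL l l' := ∀ q q', (unop l) (false, q) (true, q') → (unop l') (false, q) (true, q')
  ER r r' := ∀ q q', (unop r) (true, q) (false, q') → (unop r') (true, q) (false, q')
  eL _ _ _ h := h
  eR _ _ _ h := h
  single h := H.single h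
  mono h1 h2 h := H.mono h2 h1 (fun _ _ h => h) h
  comp h1 h2 := H.compL h1 h2
  split h := H.splitL h
  out := by
    intro l m r a x y b h1 h2 h3
    have h4 := H.outL h1 h2 h3
    rw [mul_assoc] at h4
    exact h4
  inn := by
    intro l m r a b h
    have h4 : (unop r * unop m * unop l) (true, a) (true, b) := by
      rw [mul_assoc]
      exact h
    exact H.inL h4
  dir := by
    intro l m1 m2 m3 r x z h
    have h4 : Cr (unop r) (unop m3 * unop m2 * unop m1) (unop l) true x z := by
      rw [mul_assoc]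
      exact h
    obtain ⟨w, w', h5, h6, h7⟩ := H.dirL h4
    rw [mul_assoc] at h5 h7
    exact ⟨w, w', h5, h6, h7⟩
  bR _ _ _ _ h := H.bncL h
  bL _ _ _ _ h := H.bncR h

theorem opm {a b c : NB Q} (h : a * b = c) : op b * op a = op c := by
  rw [← op_mul, h]

/-- Row P. -/
theorem pts (Q : Type) [Finite Q] (H : AlgFacts Q) : PtsFacts Q where
  trans := by
    intro e d x y z he h1 h2
    cases d
    · exact (DF.trans (A := right H) he h1 h2)
    · exact (DF.trans (A := left H) (e := op e) (opm he) h1 h2)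
  comp := by
    intro e s t d x he hs1 hs2 ht1 ht2 h1 h2
    cases d
    · exact (DF.cmp (A := right H) hs1 hs2 ht1 ht2 h1 h2)
    · exact (DF.cmp (A := left H) (e := op e) (s := op t) (t := op s) (opm ht2) (opm ht1)
        (opm hs2) (opm hs1) h2 h1)
  invL := by
    intro e f d x y z he h1 h2 h3 h4
    cases d
    · exact (DF.invL (A := right H) he h1 h2 h3 h4)
    · exact (DF.invL (A := left H) (e := op e) (f := op f) (opm he) (opm h2) (opm h1) h3 h4)
  invR := by
    intro e f d x y z he h1 h2 h3 h4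
    cases d
    · exact (DF.invR (A := right H) he h1 h2 h3 h4)
    · exact (DF.invR (A := left H) (e := op e) (f := op f) (opm he) (opm h2) (opm h1) h3 h4)
  via1 := by
    intro e d a b he h
    cases d
    · exact (DF.via1 (A := right H) he h)
    · exact (DF.via1 (A := left H) (e := op e) (opm he) h)
  via2 := by
    intro e f d a b z he h1 h2 h3 h4
    cases d
    · exact (DF.via2 (A := right H) he h1 h2 h3 h4)
    · exact (DF.via2 (A := left H) (e := op e) (f := op f) (opm he) (opm h2) (opm h1) h3 h4)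
  via3 := by
    intro e d a b a' b' z z' he h1 h2 h3
    cases d
    · exact (DF.via3 (A := right H) he h1 h2 h3)
    · exact (DF.via3 (A := left H) (e := op e) (opm he) h1 h2 h3)
  bounce := by
    rintro e f ⟨d, q⟩ ⟨d', q'⟩ h1 h2 h3 h4
    cases d <;> cases d'
    · exact absurd rfl h3
    · have := H.bncR (g := f) h4
      rwa [h1] at this
    · have := H.bncL (f := f) h4
      rwa [h2] at this
    · exact absurd rfl h3
  port := by
    intro e f d y he hf h1 h2 h3
    cases d
    · exact (DF.port (A := right H) he hf h1 h2 h3)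
    · exact (DF.port (A := left H) (e := op e) (f := op f) (opm he) (opm hf) (opm h2) (opm h1) h3)
  subL := by
    intro e f d x y z he hf h1 h2 h3 h4
    cases d
    · exact (DF.subL (A := right H) hf h1 h2 h3 h4)
    · exact (DF.subL (A := left H) (e := op e) (f := op f) (opm hf) (opm h2) (opm h1) h3 h4)
  subR := by
    intro e f d x y z he hf h1 h2 h3 h4
    cases d
    · exact (DF.subR (A := right H) hf h1 h2 h3 h4)
    · exact (DF.subR (A := left H) (e := op e) (f := op f) (opm hf) (opm h2) (opm h1) h3 h4)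
  env := by
    intro e0 e s d x y h1 h2 h
    cases d
    · exact (DF.env (A := right H) h1 h2 h)
    · exact (DF.env (A := left H) (e0 := op e0) (e := op e) (s := op s) (opm h2) (opm h1) h)

end Vale.Agent.P343.H573

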